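import Vale.Agent.P284.H551.E.Tr
import Vale.Agent.P284.H661.D.Spec

/-! # P284, project D (helper551): module E8 -/

namespace Vale.Agent.P284.H551.E

/-- **Module E8 of project D.** -/
theorem e8 : Vale.Agent.P284.H661.D.E8Stmt := by
  intro R m hR F hF hne α c C r₀ z₀ u H hα hc hr₀ hu hH hH0 hw hup hlo hL
  exact e8_core R m hR F hF hne α c C r₀ z₀ u H hα hc hr₀ hu hH hH0 hw hup hlo hL

end Vale.Agent.P284.H551.E
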