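import Vale.Agent.P284.H551.E.Prof

/-! # P284, project D (helper551): the final argument of Keller-Osserman type -/

open scoped Topology ContDiff Interval
open Filter Set Metric MeasureTheory

noncomputable section

namespace Vale.Agent.P284.H551.E

open Vale.Agent.P284.H551.D (nsq nsq_nonneg continuous_nsq nsq_smul D2 Lap swapI)

variable {R : ℕ}

/-- the continuous family of test functions -/
def kk (R : ℕ) (ρ : ℝ) (z : Fin R → ℂ) (s : ℝ) : ℝ := ws R (max s ρ) * tf (max s ρ) z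

lemma kk_cont {ρ : ℝ} (hρ : 0 < ρ) : Continuous (Function.uncurry (kk R ρ)) := by
  have hne : ∀ s : ℝ, max s ρ ≠ 0 := fun s => (hρ.trans_le (le_max_right s ρ)).ne'
  unfold kk ws tf Function.uncurry
  have h1 : Continuous fun q : (Fin R → ℂ) × ℝ => max q.2 ρ := by fun_prop
  have h2 : Continuous fun q : (Fin R → ℂ) × ℝ => max q.2 ρ / max q.2 ρ ^ (2 * R) :=
    h1.div (h1.pow _) fun q => pow_ne_zero _ (hne _)
  have h3 : Continuous fun q : (Fin R → ℂ) × ℝ => nsq q.1 / max q.2 ρ ^ 2 :=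
    (continuous_nsq.comp continuous_fst).div (h1.pow _) fun q => pow_ne_zero _ (hne _)
  exact h2.mul ((continuous_pk 4).comp h3)

/-- the Laplacian of the family -/
def kL (R : ℕ) (ρ : ℝ) (z : Fin R → ℂ) (s : ℝ) : ℝ :=
  ws R (max s ρ) * (gp (max s ρ) z - gm (max s ρ) z)

lemma kL_cont {ρ : ℝ} (hρ : 0 < ρ) : Continuous (Function.uncurry (kL R ρ)) := by
  have hne : ∀ s : ℝ, max s ρ ≠ 0 := fun s => (hρ.trans_le (le_max_right s ρ)).ne'
  unfold kL ws gp gm Function.uncurry
  have h1 : Continuous fun q : (Fin R → ℂ) × ℝ => max q.2 ρ := by fun_prop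
  have h2 : Continuous fun q : (Fin R → ℂ) × ℝ => max q.2 ρ / max q.2 ρ ^ (2 * R) :=
    h1.div (h1.pow _) fun q => pow_ne_zero _ (hne _)
  have h3 : Continuous fun q : (Fin R → ℂ) × ℝ => nsq q.1 / max q.2 ρ ^ 2 :=
    (continuous_nsq.comp continuous_fst).div (h1.pow _) fun q => pow_ne_zero _ (hne _)
  refine h2.mul ((((continuous_const.mul h3).mul ((continuous_pk 2).comp h3)).div (h1.pow _)
    fun q => pow_ne_zero _ (hne _)).sub ((continuous_const.mul ((continuous_pk 3).comp h3)).div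
    (h1.pow _) fun q => pow_ne_zero _ (hne _)))

/-- the weight of the last test function -/
def lr (R : ℕ) (r : ℝ) : ℝ := r ^ 2 / r ^ (2 * R) / (2 * R)

/-- the total test function -/
def NN (ρ r : ℝ) (z : Fin R → ℂ) : ℝ := (∫ s in ρ..r, kk R ρ z s) + lr R r * tf r z

/-- its Laplacian -/
def LN (ρ r : ℝ) (z : Fin R → ℂ) : ℝ :=
  24 / R * (r ^ (2 * R))⁻¹ * (nsq z / r ^ 2 * pk 2 (nsq z / r ^ 2)) -
    8 * (ρ ^ (2 * R))⁻¹ * pk 3 (nsq z / ρ ^ 2)

lemma kk_nonneg {ρ : ℝ} (hρ : 0 < ρ) (z : Fin R → ℂ) (s : ℝ) : 0 ≤ kk R ρ z s := by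
  have h0 : 0 < max s ρ := hρ.trans_le (le_max_right s ρ)
  unfold kk ws
  exact mul_nonneg (by positivity) (tf_nonneg _ _)

lemma kk_out {ρ r : ℝ} (hρ : 0 < ρ) (z : Fin R → ℂ) (hz : r ≤ ‖z‖) {s : ℝ} (hs : s ∈ Ioc ρ r) :
    kk R ρ z s = 0 := by
  unfold kk
  rw [max_eq_left hs.1.le]
  unfold tf
  rw [pk_out (hρ.trans hs.1) (hs.2.trans hz), mul_zero]

lemma kL_out {ρ r : ℝ} (hρ : 0 < ρ) (z : Fin R → ℂ) (hz : r ≤ ‖z‖) {s : ℝ} (hs : s ∈ Ioc ρ r) :
    kL R ρ z s = 0 := by
  unfold kL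
  rw [max_eq_left hs.1.le]
  unfold gp gm
  rw [pk_out (hρ.trans hs.1) (hs.2.trans hz),
    pk_out (hρ.trans hs.1) (hs.2.trans hz)]
  simp

lemma NN_nonneg {ρ r : ℝ} (hρ : 0 < ρ) (hρr : ρ ≤ r) (z : Fin R → ℂ) : 0 ≤ NN ρ r z := by
  have hr : 0 < r := hρ.trans_le hρr
  unfold NN lr
  exact add_nonneg (intervalIntegral.integral_nonneg hρr fun s _ => kk_nonneg hρ z s)
    (mul_nonneg (by positivity) (tf_nonneg _ _))

lemma le_NN {ρ r : ℝ} (hρ : 0 < ρ) (hρr : ρ ≤ r) (z : Fin R → ℂ) :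
    lr R r * pk 4 (nsq z / r ^ 2) ≤ NN ρ r z := by
  unfold NN
  exact le_add_of_nonneg_left (intervalIntegral.integral_nonneg hρr fun s _ => kk_nonneg hρ z s)

lemma NN_cont {ρ r : ℝ} (hρ : 0 < ρ) : Continuous (NN (R := R) ρ r) := by
  unfold NN
  refine Continuous.add ?_ (continuous_const.mul (contDiff_tf r).continuous)
  exact intervalIntegral.continuous_parametric_intervalIntegral_of_continuous' (kk_cont hρ) _ _

lemma NN_out {ρ r : ℝ} (hρ : 0 < ρ) (hρr : ρ ≤ r) {z : Fin R → ℂ} (hz : r ≤ ‖z‖) :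
    NN ρ r z = 0 := by
  have hr : 0 < r := hρ.trans_le hρr
  unfold NN
  have h1 : ∫ s in ρ..r, kk R ρ z s = 0 := by
    rw [intervalIntegral.integral_of_le hρr]
    exact setIntegral_eq_zero_of_forall_eq_zero fun s hs => kk_out hρ z hz hs
  rw [h1]
  unfold tf
  rw [pk_out hr hz]
  ring

lemma NN_supp {ρ r : ℝ} (hρ : 0 < ρ) (hρr : ρ ≤ r) : HasCompactSupport (NN (R := R) ρ r) := by
  refine HasCompactSupport.intro (isCompact_closedBall (0 : Fin R → ℂ) r) fun z hz => ?_
  rw [mem_closedBall, dist_zero_right, not_le] at hz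
  exact NN_out hρ hρr hz.le

lemma kk_rot {ρ : ℝ} (a : ℂ) (ha : ‖a‖ = 1) (z : Fin R → ℂ) (s : ℝ) :
    kk R ρ (a • z) s = kk R ρ z s := by
  unfold kk tf
  rw [nsq_smul, ha, one_pow, one_mul]

lemma NN_rot {ρ r : ℝ} (a : ℂ) (ha : ‖a‖ = 1) (z : Fin R → ℂ) :
    NN ρ r (a • z) = NN ρ r z := by
  unfold NN
  simp only [kk_rot a ha z]
  unfold tf
  rw [nsq_smul, ha, one_pow, one_mul]

/-- the weak identity for the total test function -/
lemma weak {ρ r : ℝ} (hR : 0 < R) (hρ : 0 < ρ) (hρr : ρ ≤ r) {V H : (Fin R → ℂ) → ℝ}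
    (hV : LocallyIntegrable V) (hH : LocallyIntegrable H)
    (hw : ∀ s, ρ ≤ s → ∫ z, tf s z * H z = ∫ z, V z * Lap (tf s) z) :
    Integrable (fun z => NN ρ r z * H z) ∧ Integrable (fun z => LN ρ r z * V z) ∧
    ∫ z, NN ρ r z * H z = ∫ z, LN ρ r z * V z := by
  have hr : 0 < r := hρ.trans_le hρr
  obtain ⟨i1, e1⟩ := swapI (kk_cont (R := R) hρ) hρr (fun s hs z hz => kk_out hρ z hz.le hs) hH
  obtain ⟨i2, e2⟩ := swapI (kL_cont (R := R) hρ) hρr (fun s hs z hz => kL_out hρ z hz.le hs) hV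
  have hloc : ∀ {g f : (Fin R → ℂ) → ℝ}, Continuous g → HasCompactSupport g →
      LocallyIntegrable f → Integrable fun z => g z * f z := by
    intro g f hg hgc hf
    have h1 := hf.integrable_smul_left_of_hasCompactSupport hg hgc
    simpa [smul_eq_mul] using h1
  have j1 : Integrable fun z => tf r z * H z :=
    hloc (contDiff_tf r).continuous (hasCompactSupport_pk hr) hH
  have hcL : Continuous fun z : Fin R → ℂ => gp r z - gm r z := by
    unfold gp gm
    exact (((continuous_const.mul (continuous_nsq.div_const _)).mul (cont_pk 2 r)).div_const _).sub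
      ((continuous_const.mul (cont_pk 3 r)).div_const _)
  have hsL : HasCompactSupport fun z : Fin R → ℂ => gp r z - gm r z := by
    refine HasCompactSupport.intro (isCompact_closedBall (0 : Fin R → ℂ) r) fun z hz => ?_
    rw [mem_closedBall, dist_zero_right, not_le] at hz
    unfold gp gm
    rw [pk_out hr hz.le, pk_out hr hz.le]
    simp
  have j2 : Integrable fun z => (gp r z - gm r z) * V z := hloc hcL hsL hV
  have eN : ∀ z, NN ρ r z * H z = (∫ s in ρ..r, kk R ρ z s) * H z + lr R r * (tf r z * H z) := by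
    intro z
    unfold NN
    ring
  have eL : ∀ z, LN ρ r z * V z =
      (∫ s in ρ..r, kL R ρ z s) * V z + lr R r * ((gp r z - gm r z) * V z) := by
    intro z
    have h1 : ∫ s in ρ..r, kL R ρ z s = ∫ s in ρ..r, ws R s * (gp s z - gm s z) := by
      refine intervalIntegral.integral_congr fun s hs => ?_
      rw [uIcc_of_le hρr] at hs
      show kL R ρ z s = _
      unfold kL
      rw [max_eq_left hs.1]
    rw [h1, ftc hρ hρr]
    unfold LN lr gp gm
    have hR' : (R : ℝ) ≠ 0 := by positivity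
    field_simp
    ring
  refine ⟨?_, ?_, ?_⟩
  · simp only [eN]
    exact i1.add (j1.const_mul _)
  · simp only [eL]
    exact i2.add (j2.const_mul _)
  · simp only [eN, eL]
    rw [integral_add i1 (j1.const_mul _), integral_add i2 (j2.const_mul _), e1, e2,
      integral_const_mul, integral_const_mul]
    congr 1
    · refine intervalIntegral.integral_congr fun s hs => ?_
      rw [uIcc_of_le hρr] at hs
      have hs0 : s ≠ 0 := (hρ.trans_le hs.1).ne'
      have h3 : ∀ z : Fin R → ℂ, kk R ρ z s * H z = ws R s * (tf s z * H z) := by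
        intro z; unfold kk; rw [max_eq_left hs.1]; ring
      have h4 : ∀ z : Fin R → ℂ, kL R ρ z s * V z = ws R s * (V z * Lap (tf s) z) := by
        intro z; unfold kL; rw [max_eq_left hs.1, Lap_tf s hs0]; ring
      simp only [h3, h4]
      rw [integral_const_mul, integral_const_mul, hw s hs.1]
    · rw [hw r hρr]
      congr 1
      refine integral_congr_ae (Eventually.of_forall fun z => ?_)
      show V z * Lap (tf r) z = (gp r z - gm r z) * V z
      rw [Lap_tf r hr.ne']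
      ring

/-- the integral of the last test function -/
lemma int_tf {r : ℝ} (hr : 0 < r) :
    ∫ z : Fin R → ℂ, tf r z = r ^ (2 * R) * ∫ z : Fin R → ℂ, tf 1 z := by
  have h1 : ∀ z : Fin R → ℂ, tf r z = tf 1 (r⁻¹ • z) := by
    intro z
    unfold tf
    have : nsq (r⁻¹ • z) = nsq z / r ^ 2 := by
      have h2 : r⁻¹ • z = ((r⁻¹ : ℝ) : ℂ) • z := by
        ext j; simp
      rw [h2, nsq_smul, Complex.norm_real, Real.norm_eq_abs, sq_abs]
      field_simp
    rw [this]
    simp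
  simp only [h1]
  rw [Measure.integral_comp_inv_smul_of_nonneg volume (fun z : Fin R → ℂ => tf 1 z) hr.le,
    smul_eq_mul]
  congr 2
  simp [Module.finrank_pi_fintype, Complex.finrank_real_complex, mul_comm]

lemma int_tf_pos : 0 < ∫ z : Fin R → ℂ, tf 1 z := by
  have h1 : Continuous (tf (R := R) 1) := (contDiff_tf 1).continuous
  refine h1.integral_pos_of_hasCompactSupport_nonneg_nonzero
    (hasCompactSupport_pk one_pos) (fun z => tf_nonneg _ _) (x := 0) ?_
  show tf (R := R) 1 0 ≠ 0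
  unfold tf nsq
  rw [pk4_eq]
  simp

lemma vol_ball {r : ℝ} (hr : 0 ≤ r) : volume.real (closedBall (0 : Fin R → ℂ) r) =
    r ^ (2 * R) * volume.real (closedBall (0 : Fin R → ℂ) 1) := by
  have h1 := Measure.addHaar_real_closedBall (volume : Measure (Fin R → ℂ)) 0 hr
  have h2 := Measure.addHaar_real_closedBall (volume : Measure (Fin R → ℂ)) 0 (zero_le_one' ℝ)
  rw [h1, h2]
  simp [Module.finrank_pi_fintype, Complex.finrank_real_complex, mul_comm]

end Vale.Agent.P284.H551.E
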