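import Vale.Agent.P284.H551.E.End
import Vale.Agent.P284.H551.D.KO2

/-! # P284, project D (helper551): the final argument of Keller-Osserman type, main theorem -/

open scoped Topology ContDiff Interval
open Filter Set Metric MeasureTheory

noncomputable section

namespace Vale.Agent.P284.H551.E

open Vale.Agent.P284.H551.D (nsq nsq_nonneg continuous_nsq nsq_smul D2 Lap swapI one_add_log_le
  fatou_lim young circ_le nsq_rpow_le)

variable {R : ℕ}

lemma two_add_rpow {α x : ℝ} (hα : 0 < α) (hx : 0 ≤ x) : (2 + x) ^ α ≤ 4 ^ α * (1 + x ^ α) := by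
  by_cases h : x ≤ 1
  · calc (2 + x) ^ α ≤ 4 ^ α := Real.rpow_le_rpow (by linarith) (by linarith) hα.le
      _ ≤ 4 ^ α * (1 + x ^ α) := by
        refine le_mul_of_one_le_right (by positivity) ?_
        have := Real.rpow_nonneg hx α
        linarith
  · have h' := not_le.1 h
    calc (2 + x) ^ α ≤ (4 * x) ^ α := Real.rpow_le_rpow (by linarith) (by linarith) hα.le
      _ = 4 ^ α * x ^ α := Real.mul_rpow (by norm_num) hx
      _ ≤ 4 ^ α * (1 + x ^ α) := by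
        refine mul_le_mul_of_nonneg_left ?_ (by positivity)
        linarith

/-- the constant in the upper bound -/
def K0 (R : ℕ) (C α : ℝ) : ℝ := |C| * (1 + 2 / α) * (24 / R)

/-- the pointwise upper bound -/
lemma ptw {r ρ α C κ x v : ℝ} (hR : 0 < R) (hρ : 0 < ρ) (hρr : ρ ≤ r) (hα : 0 < α) (hκ : 0 < κ)
    (hx : 0 ≤ x) (hv : v ≤ C * (1 + Real.log (2 + x))) (z : Fin R → ℂ) :
    24 / R * (r ^ (2 * R))⁻¹ * (nsq z / r ^ 2 * pk 2 (nsq z / r ^ 2)) * v ≤
      κ * (NN ρ r z * (2 + x) ^ α) + (closedBall (0 : Fin R → ℂ) r).indicator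
        (fun _ => (K0 R C α * (r ^ (2 * R))⁻¹) ^ 2 / (4 * κ * (lr R r / 18))) z := by
  have hRR : (0 : ℝ) < R := by exact_mod_cast hR
  have hr : 0 < r := hρ.trans_le hρr
  have hlamp : 0 < lr R r := by unfold lr; positivity
  have hx2 : ((2 + x) ^ (α / 2)) ^ 2 = (2 + x) ^ α := by
    rw [← Real.rpow_natCast, ← Real.rpow_mul (by linarith)]
    congr 1
    push_cast
    ring
  by_cases hz : z ∈ closedBall (0 : Fin R → ℂ) r
  · rw [indicator_of_mem hz]
    have hT0 : 0 ≤ nsq z / r ^ 2 * pk 2 (nsq z / r ^ 2) :=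
      mul_nonneg (arg_nonneg r z) (pk2_nonneg (arg_nonneg r z))
    have hT1 : nsq z / r ^ 2 * pk 2 (nsq z / r ^ 2) ≤ pk 2 (nsq z / r ^ 2) := by
      by_cases h1 : nsq z / r ^ 2 ≤ 1
      · exact mul_le_of_le_one_left (pk2_nonneg (arg_nonneg r z)) h1
      · rw [pk_zero_of_le 2 (not_le.1 h1).le, mul_zero]
    have hVu : v ≤ |C| * ((1 + 2 / α) * (2 + x) ^ (α / 2)) := by
      have h2 := one_add_log_le hα hx
      have h3 : 0 ≤ 1 + Real.log (2 + x) := by
        have := Real.log_nonneg (by linarith : (1 : ℝ) ≤ 2 + x)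
        linarith
      calc v ≤ C * (1 + Real.log (2 + x)) := hv
        _ ≤ |C| * (1 + Real.log (2 + x)) := mul_le_mul_of_nonneg_right (le_abs_self C) h3
        _ ≤ _ := mul_le_mul_of_nonneg_left h2 (abs_nonneg _)
    have hab : 24 / R * (r ^ (2 * R))⁻¹ *
        (nsq z / r ^ 2 * pk 2 (nsq z / r ^ 2)) * v ≤
        (K0 R C α * (r ^ (2 * R))⁻¹) * (2 + x) ^ (α / 2) * pk 2 (nsq z / r ^ 2) := by
      calc 24 / R * (r ^ (2 * R))⁻¹ * (nsq z / r ^ 2 * pk 2 (nsq z / r ^ 2)) * v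
          ≤ 24 / R * (r ^ (2 * R))⁻¹ * (nsq z / r ^ 2 * pk 2 (nsq z / r ^ 2)) *
            (|C| * ((1 + 2 / α) * (2 + x) ^ (α / 2))) :=
            mul_le_mul_of_nonneg_left hVu (by positivity)
        _ ≤ 24 / R * (r ^ (2 * R))⁻¹ * pk 2 (nsq z / r ^ 2) *
            (|C| * ((1 + 2 / α) * (2 + x) ^ (α / 2))) := by
            refine mul_le_mul_of_nonneg_right
              (mul_le_mul_of_nonneg_left hT1 (by positivity)) (by positivity)
        _ = _ := by rw [K0]; ring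
    have hyy := young (n := lr R r / 18) (κ := κ) hκ (by positivity) (pk 2 (nsq z / r ^ 2)) hab
    refine hyy.trans (add_le_add ?_ le_rfl)
    rw [hx2, mul_assoc]
    refine mul_le_mul_of_nonneg_left (mul_le_mul_of_nonneg_right ?_
      (Real.rpow_nonneg (by linarith) _)) hκ.le
    have h4 := le_NN hρ hρr z
    refine le_trans ?_ h4
    have h5 := pk2_sq (arg_nonneg r z)
    have h6 := mul_le_mul_of_nonneg_left h5 (by positivity : 0 ≤ lr R r / 18)
    refine h6.trans (le_of_eq ?_)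
    ring
  · have hz' : r ≤ ‖z‖ := by
      rw [mem_closedBall, dist_zero_right, not_le] at hz; exact hz.le
    rw [indicator_of_notMem hz, pk_out hr hz', mul_zero, mul_zero, zero_mul,
      NN_out hρ hρr hz', zero_mul, mul_zero, add_zero]

/-- the constant `E1` -/
def E1 (R : ℕ) (C α κ : ℝ) : ℝ :=
  18 * ((K0 R C α) ^ 2 * (2 * R)) / (4 * κ) * volume.real (closedBall (0 : Fin R → ℂ) 1)

lemma E1_nonneg {C α κ : ℝ} (hκ : 0 < κ) : 0 ≤ E1 R C α κ := by
  have := measureReal_nonneg (μ := (volume : Measure (Fin R → ℂ))) (s := closedBall 0 1)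
  unfold E1
  positivity

/-- the integrated upper bound -/
lemma upper {r ρ α C κ : ℝ} (hR : 0 < R) (hρ : 0 < ρ) (hρr : ρ ≤ r) (hα : 0 < α) (hκ : 0 < κ)
    {m : ℕ} {F : (Fin R → ℂ) → (Fin m → ℂ)} (hF : Continuous F) {V H : (Fin R → ℂ) → ℝ}
    (hV : LocallyIntegrable V) (hH : LocallyIntegrable H)
    (hw : ∀ s, ρ ≤ s → ∫ z, tf s z * H z = ∫ z, V z * Lap (tf s) z)
    (hup : ∀ z, V z ≤ C * (1 + Real.log (2 + nsq (F z))))
    (hlo : -C ≤ ∫ z, V z * pk 3 (nsq z / ρ ^ 2)) :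
    ∫ z, NN ρ r z * H z ≤ κ * (∫ z, NN ρ r z * (2 + nsq (F z)) ^ α) + E1 R C α κ * (r ^ 2)⁻¹ +
      8 * (ρ ^ (2 * R))⁻¹ * C := by
  have hRR : (0 : ℝ) < R := by exact_mod_cast hR
  have hr : 0 < r := hρ.trans_le hρr
  have hNc := NN_cont (R := R) (r := r) hρ
  have hNs := NN_supp (R := R) hρ hρr
  set A : ℝ := (K0 R C α * (r ^ (2 * R))⁻¹) ^ 2 / (4 * κ * (lr R r / 18)) with hA
  have h2F : Continuous fun z => (2 + nsq (F z)) ^ α :=
    (continuous_const.add (continuous_nsq.comp hF)).rpow_const fun _ => Or.inr hα.le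
  have hint1 : Integrable fun z => NN ρ r z * (2 + nsq (F z)) ^ α :=
    (hNc.mul h2F).integrable_of_hasCompactSupport hNs.mul_right
  have hint2 : Integrable ((closedBall (0 : Fin R → ℂ) r).indicator fun _ => A) :=
    (integrable_indicator_iff measurableSet_closedBall).2
      (integrableOn_const (by exact measure_closedBall_lt_top.ne))
  have hint0 : Integrable fun z => κ * (NN ρ r z * (2 + nsq (F z)) ^ α) := hint1.const_mul κ
  obtain ⟨-, i2, e⟩ := weak hR hρ hρr hV hH hw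
  rw [e]
  have hwi : Integrable fun z => V z * pk 3 (nsq z / ρ ^ 2) := by
    have h1 := hV.integrable_smul_left_of_hasCompactSupport (cont_pk (R := R) 3 ρ)
      (hasCompactSupport_pk hρ)
    simpa [smul_eq_mul, mul_comm] using h1
  have hpt : ∀ z, LN ρ r z * V z ≤ (κ * (NN ρ r z * (2 + nsq (F z)) ^ α) +
      (closedBall (0 : Fin R → ℂ) r).indicator (fun _ => A) z) +
      (-(8 * (ρ ^ (2 * R))⁻¹)) * (V z * pk 3 (nsq z / ρ ^ 2)) := by
    intro z
    have e1 : LN ρ r z * V z = 24 / R * (r ^ (2 * R))⁻¹ *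
        (nsq z / r ^ 2 * pk 2 (nsq z / r ^ 2)) * V z +
        (-(8 * (ρ ^ (2 * R))⁻¹)) * (V z * pk 3 (nsq z / ρ ^ 2)) := by
      unfold LN
      ring
    rw [e1]
    exact add_le_add (ptw hR hρ hρr hα hκ (nsq_nonneg _) (hup z) z) le_rfl
  have hwc : Integrable fun z => (-(8 * (ρ ^ (2 * R))⁻¹)) * (V z * pk 3 (nsq z / ρ ^ 2)) :=
    hwi.const_mul _
  have h12 : Integrable fun z => κ * (NN ρ r z * (2 + nsq (F z)) ^ α) +
      (closedBall (0 : Fin R → ℂ) r).indicator (fun _ => A) z := hint0.add hint2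
  have h5 := integral_mono i2 (h12.add hwc) hpt
  have h6 : ∫ z, ((κ * (NN ρ r z * (2 + nsq (F z)) ^ α) +
      (closedBall (0 : Fin R → ℂ) r).indicator (fun _ => A) z) +
      (-(8 * (ρ ^ (2 * R))⁻¹)) * (V z * pk 3 (nsq z / ρ ^ 2))) =
      κ * (∫ z, NN ρ r z * (2 + nsq (F z)) ^ α) +
      volume.real (closedBall (0 : Fin R → ℂ) r) * A +
      (-(8 * (ρ ^ (2 * R))⁻¹)) * ∫ z, V z * pk 3 (nsq z / ρ ^ 2) := by
    rw [integral_add h12 hwc, integral_add hint0 hint2, integral_const_mul, integral_const_mul,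
      integral_indicator measurableSet_closedBall, setIntegral_const, smul_eq_mul]
  have h7 : ∫ z, LN ρ r z * V z ≤ κ * (∫ z, NN ρ r z * (2 + nsq (F z)) ^ α) +
      volume.real (closedBall (0 : Fin R → ℂ) r) * A +
      (-(8 * (ρ ^ (2 * R))⁻¹)) * ∫ z, V z * pk 3 (nsq z / ρ ^ 2) := by
    rw [← h6]; exact h5
  have h8 : volume.real (closedBall (0 : Fin R → ℂ) r) * A = E1 R C α κ * (r ^ 2)⁻¹ := by
    rw [vol_ball hr.le, E1, hA]
    unfold lr
    field_simp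
  have h9 : (-(8 * (ρ ^ (2 * R))⁻¹)) * ∫ z, V z * pk 3 (nsq z / ρ ^ 2) ≤
      8 * (ρ ^ (2 * R))⁻¹ * C := by
    have h11 : 0 ≤ 8 * (ρ ^ (2 * R))⁻¹ := by positivity
    nlinarith
  rw [h8] at h7
  linarith

/-- the inequality for large `r` -/
lemma ineq (hR : 0 < R) {m : ℕ} {F : (Fin R → ℂ) → (Fin m → ℂ)} (hF : Differentiable ℂ F)
    {α c C ρ r κ : ℝ} (hα : 0 < α) (hc : 0 < c) (hρ : 0 < ρ)
    (hκ : 0 < κ) (hκ1 : κ * 4 ^ α ≤ c / 4) (hκ2 : κ * 4 ^ α ≤ c * (nsq (F 0)) ^ α / 4)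
    {V H : ℕ → (Fin R → ℂ) → ℝ} (hV : ∀ i, LocallyIntegrable (V i))
    (hH : ∀ i, LocallyIntegrable (H i)) (hH0 : ∀ i z, 0 ≤ H i z)
    (hw : ∀ i s, ρ ≤ s → ∫ z, tf s z * H i z = ∫ z, V i z * Lap (tf s) z)
    (hup : ∀ i z, V i z ≤ C * (1 + Real.log (2 + nsq (F z))))
    (hlo : ∀ i, -C ≤ ∫ z, V i z * pk 3 (nsq z / ρ ^ 2))
    (hL : ∀ᵐ z, ∀ᶠ i in atTop, c * (nsq (F z)) ^ α ≤ H i z) (hρr : ρ ≤ r) (hr1 : 1 ≤ r) :
    c / 2 * ((nsq (F 0)) ^ α * (r ^ 2 / (2 * R) * ∫ z : Fin R → ℂ, tf 1 z)) ≤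
      E1 R C α κ + 8 * (ρ ^ (2 * R))⁻¹ * C := by
  have hRR : (0 : ℝ) < R := by exact_mod_cast hR
  have hfc : Continuous fun z => (nsq (F z)) ^ α :=
    (continuous_nsq.comp hF.continuous).rpow_const fun _ => Or.inr hα.le
  have hf0 : ∀ z, 0 ≤ (nsq (F z)) ^ α := fun z => Real.rpow_nonneg (nsq_nonneg _) _
  have hE1n : 0 ≤ E1 R C α κ := E1_nonneg hκ
  have hr : 0 < r := hρ.trans_le hρr
  have hNc := NN_cont (R := R) (r := r) hρ
  have hNs := NN_supp (R := R) hρ hρr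
  have hN0 := NN_nonneg (R := R) hρ hρr
  have hm1p : 0 < ∫ z : Fin R → ℂ, tf 1 z := int_tf_pos
  set m1 : ℝ := ∫ z : Fin R → ℂ, tf 1 z with hm1
  -- the integrals
  set I : ℝ := ∫ z, NN ρ r z * (nsq (F z)) ^ α with hI
  set J : ℝ := ∫ z : Fin R → ℂ, NN ρ r z with hJ
  have hIJ : (nsq (F 0)) ^ α * J ≤ I := by
    have h1 := circ_le (V := fun z => (nsq (F z)) ^ α) (g := NN ρ r) hfc hNc hNs hN0
      (fun a ha z => NN_rot a ha z) (c := (nsq (F 0)) ^ α) (fun z => nsq_rpow_le hF hα z)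
    calc (nsq (F 0)) ^ α * J ≤ ∫ z, (nsq (F z)) ^ α * NN ρ r z := h1
      _ = I := by rw [hI]; congr 1; ext z; ring
  have hJ1 : r ^ 2 / (2 * R) * m1 ≤ J := by
    have h1 : ∫ z : Fin R → ℂ, lr R r * tf r z ≤ J := by
      refine integral_mono (((contDiff_tf r).continuous.integrable_of_hasCompactSupport
        (hasCompactSupport_pk hr)).const_mul _)
        (hNc.integrable_of_hasCompactSupport hNs) fun z => ?_
      exact le_NN hρ hρr z
    rw [integral_const_mul, int_tf hr] at h1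
    refine le_trans (le_of_eq ?_) h1
    rw [← hm1]
    unfold lr
    field_simp
  have hJ0 : 0 ≤ J := le_trans (by positivity) hJ1
  have hfin := fatou_lim hNc hNs hN0 (f := fun z => c * (nsq (F z)) ^ α)
    (continuous_const.mul hfc) (fun z => mul_nonneg hc.le (hf0 z))
    (fun i => (hH i).aestronglyMeasurable) hH0
    (fun i => (weak hR hρ hρr (hV i) (hH i) (hw i)).1) hL
    (fun i => upper hR hρ hρr hα hκ hF.continuous (hV i) (hH i) (hw i) (hup i) (hlo i))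
  have h1 : ∫ z, NN ρ r z * (c * (nsq (F z)) ^ α) = c * I := by
    rw [hI, ← integral_const_mul]
    congr 1; ext z; ring
  rw [h1] at hfin
  have h2F : Continuous fun z => (2 + nsq (F z)) ^ α :=
    (continuous_const.add (continuous_nsq.comp hF.continuous)).rpow_const fun _ => Or.inr hα.le
  have hint1 : Integrable fun z => NN ρ r z * (2 + nsq (F z)) ^ α :=
    (hNc.mul h2F).integrable_of_hasCompactSupport hNs.mul_right
  have h2 : ∫ z, NN ρ r z * (2 + nsq (F z)) ^ α ≤ 4 ^ α * (J + I) := by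
    have q1 : Integrable fun z : Fin R → ℂ => NN ρ r z := hNc.integrable_of_hasCompactSupport hNs
    have q2 : Integrable fun z : Fin R → ℂ => NN ρ r z * (nsq (F z)) ^ α :=
      (hNc.mul hfc).integrable_of_hasCompactSupport hNs.mul_right
    have h3 : ∫ z, NN ρ r z * (2 + nsq (F z)) ^ α ≤
        ∫ z, 4 ^ α * (NN ρ r z + NN ρ r z * (nsq (F z)) ^ α) := by
      refine integral_mono hint1 ((q1.add q2).const_mul _) fun z => ?_
      have h4 := two_add_rpow hα (nsq_nonneg (F z))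
      have h5 := mul_le_mul_of_nonneg_left h4 (hN0 z)
      show NN ρ r z * (2 + nsq (F z)) ^ α ≤ 4 ^ α * (NN ρ r z + NN ρ r z * (nsq (F z)) ^ α)
      refine h5.trans (le_of_eq ?_)
      ring
    refine h3.trans (le_of_eq ?_)
    rw [integral_const_mul, integral_add q1 q2]
  have h3 : E1 R C α κ * (r ^ 2)⁻¹ ≤ E1 R C α κ := by
    have h4 : (1 : ℝ) ≤ r ^ 2 := one_le_pow₀ hr1
    exact mul_le_of_le_one_right hE1n (inv_le_one_of_one_le₀ h4)
  have hI0 : 0 ≤ I := le_trans (mul_nonneg (hf0 0) hJ0) hIJ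
  have h4 : κ * (∫ z, NN ρ r z * (2 + nsq (F z)) ^ α) ≤ κ * 4 ^ α * J + κ * 4 ^ α * I := by
    have := mul_le_mul_of_nonneg_left h2 hκ.le
    linarith
  have h5 : κ * 4 ^ α * J ≤ c / 4 * I := by
    calc κ * 4 ^ α * J ≤ (c * (nsq (F 0)) ^ α / 4) * J := mul_le_mul_of_nonneg_right hκ2 hJ0
      _ = c / 4 * ((nsq (F 0)) ^ α * J) := by ring
      _ ≤ c / 4 * I := mul_le_mul_of_nonneg_left hIJ (by positivity)
  have h6 : κ * 4 ^ α * I ≤ c / 4 * I := mul_le_mul_of_nonneg_right hκ1 hI0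
  have h7 : c / 2 * I ≤ E1 R C α κ + 8 * (ρ ^ (2 * R))⁻¹ * C := by linarith
  refine le_trans ?_ h7
  refine mul_le_mul_of_nonneg_left ?_ (by positivity)
  exact le_trans (mul_le_mul_of_nonneg_left hJ1 (hf0 0)) hIJ

/-- **The final argument.** `V i` is the potential of the form pulled back by `F`, `H i` its
Laplacian (in the weak sense, against the test functions `tf s`). -/
theorem ko_end (hR : 0 < R) {m : ℕ} {F : (Fin R → ℂ) → (Fin m → ℂ)} (hF : Differentiable ℂ F)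
    (hF0 : F 0 ≠ 0) {α c C ρ : ℝ} (hα : 0 < α) (hc : 0 < c) (hρ : 0 < ρ)
    {V H : ℕ → (Fin R → ℂ) → ℝ} (hV : ∀ i, LocallyIntegrable (V i))
    (hH : ∀ i, LocallyIntegrable (H i)) (hH0 : ∀ i z, 0 ≤ H i z)
    (hw : ∀ i s, ρ ≤ s → ∫ z, tf s z * H i z = ∫ z, V i z * Lap (tf s) z)
    (hup : ∀ i z, V i z ≤ C * (1 + Real.log (2 + nsq (F z))))
    (hlo : ∀ i, -C ≤ ∫ z, V i z * pk 3 (nsq z / ρ ^ 2))
    (hL : ∀ᵐ z, ∀ᶠ i in atTop, c * (nsq (F z)) ^ α ≤ H i z) : False := by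
  have hRR : (0 : ℝ) < R := by exact_mod_cast hR
  have hnF0 : 0 < nsq (F 0) := by
    obtain ⟨a, ha⟩ := Function.ne_iff.1 hF0
    have h1 : ‖F 0 a‖ ^ 2 ≤ nsq (F 0) :=
      Finset.single_le_sum (f := fun j => ‖F 0 j‖ ^ 2) (fun _ _ => by positivity) (Finset.mem_univ a)
    have h2 : 0 < ‖F 0 a‖ := norm_pos_iff.2 (by simpa using ha)
    exact lt_of_lt_of_le (by positivity) h1
  have hf0pos : 0 < (nsq (F 0)) ^ α := Real.rpow_pos_of_pos hnF0 _
  have hm1p : 0 < ∫ z : Fin R → ℂ, tf 1 z := int_tf_pos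
  set m1 : ℝ := ∫ z : Fin R → ℂ, tf 1 z with hm1
  have h4p : (0 : ℝ) < 4 ^ α := Real.rpow_pos_of_pos (by norm_num) _
  set κ : ℝ := min (c / 4) (c * (nsq (F 0)) ^ α / 4) / 4 ^ α with hκd
  have hκ : 0 < κ := div_pos (lt_min (by positivity) (by positivity)) h4p
  have hκe : κ * 4 ^ α = min (c / 4) (c * (nsq (F 0)) ^ α / 4) := div_mul_cancel₀ _ h4p.ne'
  have hκ1 : κ * 4 ^ α ≤ c / 4 := hκe.trans_le (min_le_left _ _)
  have hκ2 : κ * 4 ^ α ≤ c * (nsq (F 0)) ^ α / 4 := hκe.trans_le (min_le_right _ _)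
  set E : ℝ := E1 R C α κ + 8 * (ρ ^ (2 * R))⁻¹ * C with hE
  -- large `r`
  set D : ℝ := c / 2 * ((nsq (F 0)) ^ α * (1 / (2 * R) * m1)) with hD
  have hDp : 0 < D := by positivity
  have hbound : ∀ r : ℝ, ρ ≤ r → 1 ≤ r → D * r ^ 2 ≤ E := by
    intro r h1 h2
    have h3 := ineq hR hF hα hc hρ hκ hκ1 hκ2 hV hH hH0 hw hup hlo hL h1 h2
    refine le_trans (le_of_eq ?_) h3
    rw [hD]
    ring
  set r : ℝ := max (max ρ 1) ((|E| + 1) / D + 1) with hrd
  have hr1 : ρ ≤ r := (le_max_left ρ 1).trans (le_max_left _ _)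
  have hr2 : 1 ≤ r := (le_max_right ρ 1).trans (le_max_left _ _)
  have hr3 : (|E| + 1) / D ≤ r := by
    have := le_max_right (max ρ 1) ((|E| + 1) / D + 1)
    linarith
  have h1 := hbound r hr1 hr2
  have h2 : |E| + 1 ≤ D * r := by
    rw [div_le_iff₀ hDp] at hr3
    linarith
  have h3 : D * r ≤ D * r ^ 2 := by
    have : r ≤ r ^ 2 := by nlinarith
    exact mul_le_mul_of_nonneg_left this hDp.le
  have h4 := le_abs_self E
  linarith

end Vale.Agent.P284.H551.E
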