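import Vale.Agent.P284.H551.D.Fub
import Mathlib.Analysis.SpecialFunctions.SmoothTransition

/-! # P284, project D (helper551): the smooth profile `exp (-2/(1-t))` -/

open scoped Topology ContDiff Interval
open Filter Set Metric MeasureTheory Polynomial

noncomputable section

namespace Vale.Agent.P284.H551.E

open Vale.Agent.P284.H551.D (nsq nsq_nonneg continuous_nsq nsq_smul D2 Lap dq hasFDerivAt_nsq
  fderiv_dq differentiable_dq dq_sum nsq_single norm_sq_le_nsq one_le_of)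

/-- the polynomials in `2/(1-t)` -/
def pol : ℕ → ℝ[X]
  | 2 => C (1 / 48) * X ^ 4 - C (1 / 24) * X ^ 3
  | 3 => C (1 / 8) * X ^ 2
  | 4 => 1
  | _ => 0

/-- the profiles: `pk 4 = exp (-2/(1-t))`, `pk 3 = -(pk 4)'/4`, `pk 2 = -(pk 3)'/3` -/
def pk (k : ℕ) (t : ℝ) : ℝ := (pol k).eval ((1 - t) / 2)⁻¹ * expNegInvGlue ((1 - t) / 2)

lemma pk4_eq (t : ℝ) : pk 4 t = expNegInvGlue ((1 - t) / 2) := by simp [pk, pol]

lemma pk3_eq (t : ℝ) : pk 3 t = 1 / 8 * (((1 - t) / 2)⁻¹) ^ 2 * expNegInvGlue ((1 - t) / 2) := by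
  simp [pk, pol]

lemma pk2_eq (t : ℝ) : pk 2 t = (1 / 48 * (((1 - t) / 2)⁻¹) ^ 4 - 1 / 24 * (((1 - t) / 2)⁻¹) ^ 3) *
    expNegInvGlue ((1 - t) / 2) := by
  simp [pk, pol]

lemma pk_zero_of_le (k : ℕ) {t : ℝ} (ht : 1 ≤ t) : pk k t = 0 := by
  unfold pk
  rw [expNegInvGlue.zero_of_nonpos (by linarith), mul_zero]

lemma pk4_nonneg (t : ℝ) : 0 ≤ pk 4 t := by
  rw [pk4_eq]; exact expNegInvGlue.nonneg _

lemma pk3_nonneg (t : ℝ) : 0 ≤ pk 3 t := by
  rw [pk3_eq]; exact mul_nonneg (by positivity) (expNegInvGlue.nonneg _)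

lemma inv_ge {t : ℝ} (h0 : 0 ≤ t) (h1 : t < 1) : 2 ≤ ((1 - t) / 2)⁻¹ := by
  rw [le_inv_comm₀ (by norm_num) (by linarith)]
  linarith

lemma pk2_nonneg {t : ℝ} (h0 : 0 ≤ t) : 0 ≤ pk 2 t := by
  by_cases h1 : 1 ≤ t
  · rw [pk_zero_of_le 2 h1]
  · rw [pk2_eq]
    have h2 := inv_ge h0 (not_le.1 h1)
    set y := ((1 - t) / 2)⁻¹ with hy
    refine mul_nonneg ?_ (expNegInvGlue.nonneg _)
    have h3 : 1 / 48 * y ^ 4 - 1 / 24 * y ^ 3 = 1 / 48 * y ^ 3 * (y - 2) := by ring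
    rw [h3]
    exact mul_nonneg (by positivity) (by linarith)

lemma glue_eq {t : ℝ} (h1 : t < 1) :
    expNegInvGlue ((1 - t) / 2) = (Real.exp (((1 - t) / 2)⁻¹))⁻¹ := by
  rw [expNegInvGlue, if_neg (by linarith), Real.exp_neg]

lemma pk2_sq {t : ℝ} (h0 : 0 ≤ t) : (pk 2 t) ^ 2 ≤ 18 * pk 4 t := by
  by_cases h1 : 1 ≤ t
  · rw [pk_zero_of_le 2 h1, pk_zero_of_le 4 h1]; norm_num
  · have h1' := not_le.1 h1
    have h2 := inv_ge h0 h1'
    rw [pk2_eq, pk4_eq, glue_eq h1']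
    set y := ((1 - t) / 2)⁻¹ with hy
    have hy0 : 0 < y := by linarith
    have hE : 0 < Real.exp y := Real.exp_pos _
    have h3 : 0 ≤ 1 / 48 * y ^ 4 - 1 / 24 * y ^ 3 := by
      have h3 : 1 / 48 * y ^ 4 - 1 / 24 * y ^ 3 = 1 / 48 * y ^ 3 * (y - 2) := by ring
      rw [h3]
      exact mul_nonneg (by positivity) (by linarith)
    have h4 : 1 / 48 * y ^ 4 - 1 / 24 * y ^ 3 ≤ 1 / 48 * y ^ 4 := by
      have : 0 ≤ 1 / 24 * y ^ 3 := by positivity
      linarith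
    have h5 : (1 / 48 * y ^ 4 - 1 / 24 * y ^ 3) ^ 2 ≤ (1 / 48 * y ^ 4) ^ 2 :=
      pow_le_pow_left₀ h3 h4 2
    have h6 : y ^ 8 / (Nat.factorial 8 : ℝ) ≤ Real.exp y := Real.pow_div_factorial_le_exp y hy0.le 8
    have h7 : (Nat.factorial 8 : ℝ) = 40320 := by norm_num [Nat.factorial]
    rw [h7, div_le_iff₀ (by norm_num)] at h6
    rw [mul_pow]
    calc (1 / 48 * y ^ 4 - 1 / 24 * y ^ 3) ^ 2 * ((Real.exp y)⁻¹) ^ 2
        ≤ (1 / 48 * y ^ 4) ^ 2 * ((Real.exp y)⁻¹) ^ 2 :=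
          mul_le_mul_of_nonneg_right h5 (by positivity)
      _ = (1 / 2304) * y ^ 8 * ((Real.exp y)⁻¹) ^ 2 := by ring
      _ ≤ (1 / 2304) * (Real.exp y * 40320) * ((Real.exp y)⁻¹) ^ 2 := by gcongr
      _ = 17.5 * (Real.exp y)⁻¹ := by field_simp; norm_num
      _ ≤ 18 * (Real.exp y)⁻¹ := by gcongr; norm_num

lemma pk3_le {t : ℝ} : pk 3 t ≤ 1 := by
  by_cases h1 : 1 ≤ t
  · rw [pk_zero_of_le 3 h1]; norm_num
  · have h1' := not_le.1 h1
    rw [pk3_eq, glue_eq h1']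
    have hy0 : 0 < ((1 - t) / 2)⁻¹ := by
      rw [inv_pos]; linarith
    set y := ((1 - t) / 2)⁻¹ with hy
    have hE : 0 < Real.exp y := Real.exp_pos _
    have h6 : y ^ 2 / (Nat.factorial 2 : ℝ) ≤ Real.exp y := Real.pow_div_factorial_le_exp y hy0.le 2
    have h7 : (Nat.factorial 2 : ℝ) = 2 := by norm_num [Nat.factorial]
    rw [h7, div_le_iff₀ (by norm_num)] at h6
    rw [← div_eq_mul_inv, div_le_one hE]
    linarith

lemma continuous_pk (k : ℕ) : Continuous (pk k) := by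
  unfold pk
  exact (expNegInvGlue.continuous_polynomial_eval_inv_mul (pol k)).comp
    (by fun_prop : Continuous fun t : ℝ => (1 - t) / 2)

lemma hasDerivAt_pp (p : ℝ[X]) (t : ℝ) :
    HasDerivAt (fun t : ℝ => p.eval ((1 - t) / 2)⁻¹ * expNegInvGlue ((1 - t) / 2))
      (-(1 / 2) * ((X ^ 2 * (p - derivative p)).eval ((1 - t) / 2)⁻¹ *
        expNegInvGlue ((1 - t) / 2))) t := by
  have h1 := expNegInvGlue.hasDerivAt_polynomial_eval_inv_mul p ((1 - t) / 2)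
  have h2 : HasDerivAt (fun t : ℝ => (1 - t) / 2) (-(1 / 2)) t := by
    have := ((hasDerivAt_id' t).const_sub 1).div_const 2
    refine this.congr_deriv ?_
    norm_num
  have h3 := HasDerivAt.comp (h₂ := fun x : ℝ => p.eval x⁻¹ * expNegInvGlue x) t h1 h2
  refine h3.congr_deriv ?_
  ring

lemma hasDerivAt_pk4 (t : ℝ) : HasDerivAt (pk 4) (-4 * pk 3 t) t := by
  refine (hasDerivAt_pp (pol 4) t).congr_deriv ?_
  simp only [pk, pol]
  simp
  ring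

lemma hasDerivAt_pk3 (t : ℝ) : HasDerivAt (pk 3) (-3 * pk 2 t) t := by
  refine (hasDerivAt_pp (pol 3) t).congr_deriv ?_
  simp only [pk, pol]
  simp
  ring

lemma contDiff_pk (k : ℕ) : ContDiff ℝ ∞ (pk k) := by
  have h1 := expNegInvGlue.contDiff_polynomial_eval_inv_mul (n := ⊤) (pol k)
  exact h1.comp (by fun_prop : ContDiff ℝ ∞ fun t : ℝ => (1 - t) / 2)

variable {R : ℕ}

lemma contDiff_nsq : ContDiff ℝ ∞ (nsq (m := R)) := by
  have h3 : (nsq (m := R)) = fun x => ∑ j, ((x j).re ^ 2 + (x j).im ^ 2) :=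
    funext fun x => D.nsq_eq x
  rw [h3]
  refine ContDiff.sum fun j _ => ?_
  have hr : ContDiff ℝ ∞ (fun x : Fin R → ℂ => (x j).re) :=
    (Complex.reCLM.comp (ContinuousLinearMap.proj (R := ℝ) (φ := fun _ : Fin R => ℂ) j)).contDiff
  have hi : ContDiff ℝ ∞ (fun x : Fin R → ℂ => (x j).im) :=
    (Complex.imCLM.comp (ContinuousLinearMap.proj (R := ℝ) (φ := fun _ : Fin R => ℂ) j)).contDiff
  exact (hr.pow 2).add (hi.pow 2)

/-- the test function -/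
def tf (r : ℝ) (z : Fin R → ℂ) : ℝ := pk 4 (nsq z / r ^ 2)

lemma arg_nonneg (r : ℝ) (z : Fin R → ℂ) : 0 ≤ nsq z / r ^ 2 :=
  div_nonneg (nsq_nonneg _) (by positivity)

lemma tf_nonneg (r : ℝ) (z : Fin R → ℂ) : 0 ≤ tf r z := pk4_nonneg _

lemma contDiff_tf (r : ℝ) : ContDiff ℝ ∞ (tf (R := R) r) :=
  (contDiff_pk 4).comp (contDiff_nsq.div_const _)

lemma hasFDerivAt_arg (r : ℝ) {z : Fin R → ℂ} {L : (Fin R → ℂ) →L[ℝ] ℝ}
    (hL : HasFDerivAt (nsq (m := R)) L z) :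
    HasFDerivAt (fun x : Fin R → ℂ => nsq x / r ^ 2) ((r ^ 2)⁻¹ • L) z := by
  have := hL.const_mul (r ^ 2)⁻¹
  simpa [div_eq_inv_mul] using this

lemma fderiv_tf (r : ℝ) (z v : Fin R → ℂ) :
    fderiv ℝ (tf r) z v = -4 * pk 3 (nsq z / r ^ 2) * (dq v z / r ^ 2) := by
  have h1 := hasDerivAt_pk4 (nsq z / r ^ 2)
  obtain ⟨L, hL, h⟩ := hasFDerivAt_nsq z
  have h4 : HasFDerivAt (tf r) ((-4 * pk 3 (nsq z / r ^ 2)) • ((r ^ 2)⁻¹ • L)) z :=
    HasDerivAt.comp_hasFDerivAt (h₂ := pk 4) z h1 (hasFDerivAt_arg r hL)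
  rw [h4.fderiv]
  simp only [smul_apply, smul_eq_mul, h]
  ring

lemma D2_tf (r : ℝ) (v z : Fin R → ℂ) :
    D2 (tf r) v z = 12 * pk 2 (nsq z / r ^ 2) * (dq v z / r ^ 2) ^ 2 -
      4 * pk 3 (nsq z / r ^ 2) * (2 * nsq v / r ^ 2) := by
  unfold D2
  have h0 : (fun x => fderiv ℝ (tf r) x v) =
      fun x => -4 * pk 3 (nsq x / r ^ 2) * (dq v x / r ^ 2) := funext fun x => fderiv_tf r x v
  rw [h0]
  have h1 := hasDerivAt_pk3 (nsq z / r ^ 2)
  obtain ⟨L, hL, h⟩ := hasFDerivAt_nsq z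
  have h3 : HasFDerivAt (fun x : Fin R → ℂ => pk 3 (nsq x / r ^ 2))
      ((-3 * pk 2 (nsq z / r ^ 2)) • ((r ^ 2)⁻¹ • L)) z :=
    HasDerivAt.comp_hasFDerivAt (h₂ := pk 3) z h1 (hasFDerivAt_arg r hL)
  have h4 : HasFDerivAt (fun x : Fin R → ℂ => dq v x / r ^ 2) ((r ^ 2)⁻¹ • fderiv ℝ (dq v) z) z := by
    have := (differentiable_dq v z).hasFDerivAt.const_mul (r ^ 2)⁻¹
    simpa [div_eq_inv_mul] using this
  have h5 := (h3.const_mul (-4)).fun_mul h4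
  rw [h5.fderiv]
  simp only [add_apply, smul_apply, smul_eq_mul, h, fderiv_dq]
  ring

/-- the positive part of the Laplacian of the test function -/
def gp (r : ℝ) (z : Fin R → ℂ) : ℝ := 48 * (nsq z / r ^ 2) * pk 2 (nsq z / r ^ 2) / r ^ 2

/-- the negative part of the Laplacian of the test function -/
def gm (r : ℝ) (z : Fin R → ℂ) : ℝ := 16 * R * pk 3 (nsq z / r ^ 2) / r ^ 2

lemma Lap_tf (r : ℝ) (hr : r ≠ 0) (z : Fin R → ℂ) : Lap (tf r) z = gp r z - gm r z := by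
  unfold Lap
  simp only [D2_tf, nsq_single, norm_one, Complex.norm_I]
  have h1 : ∀ j : Fin R, (12 * pk 2 (nsq z / r ^ 2) * (dq (Pi.single j 1) z / r ^ 2) ^ 2 -
      4 * pk 3 (nsq z / r ^ 2) * (2 * 1 ^ 2 / r ^ 2) +
      (12 * pk 2 (nsq z / r ^ 2) * (dq (Pi.single j Complex.I) z / r ^ 2) ^ 2 -
      4 * pk 3 (nsq z / r ^ 2) * (2 * 1 ^ 2 / r ^ 2))) =
      12 * pk 2 (nsq z / r ^ 2) / r ^ 4 *
        ((dq (Pi.single j 1) z) ^ 2 + (dq (Pi.single j Complex.I) z) ^ 2) -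
      16 * pk 3 (nsq z / r ^ 2) / r ^ 2 := by
    intro j
    field_simp
    ring
  rw [Finset.sum_congr rfl fun j _ => h1 j, Finset.sum_sub_distrib, ← Finset.mul_sum, dq_sum]
  simp only [Finset.sum_const, Finset.card_univ, Fintype.card_fin, nsmul_eq_mul, gp, gm]
  field_simp
  ring

lemma pk_out {k : ℕ} {s : ℝ} (hs : 0 < s) {z : Fin R → ℂ} (hz : s ≤ ‖z‖) :
    pk k (nsq z / s ^ 2) = 0 := pk_zero_of_le k (one_le_of hs hz)

lemma hasCompactSupport_pk {k : ℕ} {s : ℝ} (hs : 0 < s) :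
    HasCompactSupport fun z : Fin R → ℂ => pk k (nsq z / s ^ 2) := by
  refine HasCompactSupport.intro (isCompact_closedBall (0 : Fin R → ℂ) s) fun z hz => ?_
  rw [mem_closedBall, dist_zero_right, not_le] at hz
  exact pk_out hs hz.le

lemma cont_pk (k : ℕ) (s : ℝ) : Continuous fun z : Fin R → ℂ => pk k (nsq z / s ^ 2) :=
  (continuous_pk k).comp (continuous_nsq.div_const _)

/-- the weight in the superposition of test functions -/
def ws (R : ℕ) (s : ℝ) : ℝ := s / s ^ (2 * R)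

/-- the identity behind the superposition -/
lemma ftc {ρ r : ℝ} (hρ : 0 < ρ) (hρr : ρ ≤ r) (z : Fin R → ℂ) :
    ∫ s in ρ..r, ws R s * (gp s z - gm s z) =
      8 * ((r ^ (2 * R))⁻¹ * pk 3 (nsq z / r ^ 2)) - 8 * ((ρ ^ (2 * R))⁻¹ * pk 3 (nsq z / ρ ^ 2)) := by
  have hd : ∀ s ∈ [[ρ, r]], HasDerivAt (fun s : ℝ => 8 * ((s ^ (2 * R))⁻¹ * pk 3 (nsq z / s ^ 2)))
      (ws R s * (gp s z - gm s z)) s := by
    intro s hs
    rw [uIcc_of_le hρr] at hs
    have hs0 : 0 < s := hρ.trans_le hs.1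
    have h1 : HasDerivAt (fun s : ℝ => (s ^ (2 * R))⁻¹)
        (-(((2 * R : ℕ) : ℝ) * s ^ (2 * R - 1)) / (s ^ (2 * R)) ^ 2) s :=
      (hasDerivAt_pow (2 * R) s).fun_inv (by positivity)
    have h2 : HasDerivAt (fun s : ℝ => nsq z / s ^ 2) (nsq z * (-(2 * s) / (s ^ 2) ^ 2)) s := by
      have h3 : HasDerivAt (fun s : ℝ => (s ^ 2)⁻¹) (-(2 * s) / (s ^ 2) ^ 2) s := by
        have := (hasDerivAt_pow 2 s).fun_inv (by positivity)
        simpa using this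
      have h4 := h3.const_mul (nsq z)
      simpa [div_eq_mul_inv] using h4
    have h3 : HasDerivAt (fun s : ℝ => pk 3 (nsq z / s ^ 2))
        ((-3 * pk 2 (nsq z / s ^ 2)) * (nsq z * (-(2 * s) / (s ^ 2) ^ 2))) s :=
      HasDerivAt.comp (h₂ := pk 3) s (hasDerivAt_pk3 (nsq z / s ^ 2)) h2
    have h4 := (h1.fun_mul h3).const_mul 8
    refine h4.congr_deriv ?_
    unfold ws gp gm
    rcases Nat.eq_zero_or_pos R with hR | hR
    · subst hR
      simp only [mul_zero, pow_zero]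
      push_cast
      field_simp
      ring
    · have h5 : s ^ (2 * R) = s ^ (2 * R - 1) * s := by
        rw [← pow_succ]; congr 1; omega
      rw [h5]
      push_cast
      have h6 : s ^ (2 * R - 1) ≠ 0 := by positivity
      field_simp
      ring
  have hcont : ContinuousOn (fun s : ℝ => ws R s * (gp s z - gm s z)) [[ρ, r]] := by
    rw [uIcc_of_le hρr]
    have hne : ∀ s ∈ Icc ρ r, s ≠ 0 := fun s hs => (hρ.trans_le hs.1).ne'
    have hne2 : ∀ s ∈ Icc ρ r, s ^ 2 ≠ 0 := fun s hs => pow_ne_zero _ (hne s hs)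
    have hq : ContinuousOn (fun s : ℝ => nsq z / s ^ 2) (Icc ρ r) :=
      continuousOn_const.div (by fun_prop) hne2
    have h2 : ∀ k, ContinuousOn (fun s : ℝ => pk k (nsq z / s ^ 2)) (Icc ρ r) := fun k =>
      (continuous_pk k).comp_continuousOn hq
    unfold ws gp gm
    refine ContinuousOn.mul ?_ (ContinuousOn.sub ?_ ?_)
    · exact continuousOn_id.div (by fun_prop) fun s hs => pow_ne_zero _ (hne s hs)
    · exact ((continuousOn_const.mul hq).mul (h2 2)).div (by fun_prop) hne2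
    · exact (continuousOn_const.mul (h2 3)).div (by fun_prop) hne2
  rw [intervalIntegral.integral_eq_sub_of_hasDerivAt hd hcont.intervalIntegrable]

end Vale.Agent.P284.H551.E
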