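import Vale.Agent.P284.H551.E.KO
import Vale.Agent.P272.K.Stmt

/-! # P284, project D (helper551): module E8 in the letters of the specification, core -/

open scoped Topology ContDiff Interval
open Filter Set Metric MeasureTheory

noncomputable section

namespace Vale.Agent.P284.H551.E

open Vale.Agent.P284.H551.D (nsq nsq_nonneg continuous_nsq nsq_smul D2 Lap)
open Vale.Agent.P272.K (Cm cHess dz dzb)

variable {R : ℕ}

lemma fderiv_ofReal {f : Cm R → ℝ} {y : Cm R} (hf : DifferentiableAt ℝ f y) (v : Cm R) :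
    fderiv ℝ (fun x => (f x : ℂ)) y v = ((fderiv ℝ f y v : ℝ) : ℂ) := by
  have h1 : HasFDerivAt (fun x => (f x : ℂ)) (Complex.ofRealCLM.comp (fderiv ℝ f y)) y :=
    Complex.ofRealCLM.hasFDerivAt.comp y hf.hasFDerivAt
  rw [h1.fderiv]
  rfl

lemma cHess_diag {χ : Cm R → ℝ} (hχ : ContDiff ℝ ∞ χ) (z : Cm R) (j : Fin R) :
    (cHess χ z j j).re = 1 / 4 * (D2 χ (Pi.single j 1) z + D2 χ (Pi.single j Complex.I) z) := by
  have h2 : ContDiff ℝ 2 χ := by exact_mod_cast (contDiff_infty.1 hχ 2)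
  have hd : ∀ y, DifferentiableAt ℝ χ y := fun y => (h2.differentiable (by norm_num)) y
  have hdir : ∀ v : Cm R, ∀ y, DifferentiableAt ℝ (fun x => fderiv ℝ χ x v) y := fun v y =>
    ((D.contDiff_dir h2 v).differentiable (by norm_num)) y
  have hg : (dzb j fun y => (χ y : ℂ)) = fun y =>
      (((fderiv ℝ χ y (Pi.single j 1) : ℝ) : ℂ) +
        Complex.I * ((fderiv ℝ χ y (Pi.single j Complex.I) : ℝ) : ℂ)) / 2 := by
    ext y
    unfold dzb
    rw [fderiv_ofReal (hd y), fderiv_ofReal (hd y)]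
  have hfd : ∀ v : Cm R, fderiv ℝ (dzb j fun y => (χ y : ℂ)) z v =
      (((fderiv ℝ (fun x => fderiv ℝ χ x (Pi.single j 1)) z v : ℝ) : ℂ) +
        Complex.I * ((fderiv ℝ (fun x => fderiv ℝ χ x (Pi.single j Complex.I)) z v : ℝ) : ℂ)) / 2 := by
    intro v
    rw [hg]
    have k1 : HasFDerivAt (fun y : Cm R => ((fderiv ℝ χ y (Pi.single j 1) : ℝ) : ℂ))
        (Complex.ofRealCLM.comp (fderiv ℝ (fun x => fderiv ℝ χ x (Pi.single j 1)) z)) z :=
      Complex.ofRealCLM.hasFDerivAt.comp z (hdir _ z).hasFDerivAt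
    have k2 : HasFDerivAt (fun y : Cm R => ((fderiv ℝ χ y (Pi.single j Complex.I) : ℝ) : ℂ))
        (Complex.ofRealCLM.comp (fderiv ℝ (fun x => fderiv ℝ χ x (Pi.single j Complex.I)) z)) z :=
      Complex.ofRealCLM.hasFDerivAt.comp z (hdir _ z).hasFDerivAt
    have k3 := (k1.fun_add (k2.const_mul Complex.I)).const_mul ((2 : ℂ)⁻¹)
    have k4 : (fun y : Cm R => (((fderiv ℝ χ y (Pi.single j 1) : ℝ) : ℂ) +
        Complex.I * ((fderiv ℝ χ y (Pi.single j Complex.I) : ℝ) : ℂ)) / 2) = fun y : Cm R =>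
        (2 : ℂ)⁻¹ * (((fderiv ℝ χ y (Pi.single j 1) : ℝ) : ℂ) +
        Complex.I * ((fderiv ℝ χ y (Pi.single j Complex.I) : ℝ) : ℂ)) := by
      ext y; rw [div_eq_inv_mul]
    rw [k4, k3.fderiv]
    simp only [add_apply, smul_apply, smul_eq_mul, ContinuousLinearMap.comp_apply,
      Complex.ofRealCLM_apply]
    rw [div_eq_inv_mul]
  have h3 : cHess χ z j j = dz j (dzb j fun y => (χ y : ℂ)) z := rfl
  rw [h3]
  unfold dz
  rw [hfd, hfd]
  unfold D2
  simp only [Complex.div_re, Complex.sub_re, Complex.add_re, Complex.mul_re, Complex.ofReal_re,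
    Complex.ofReal_im, Complex.I_re, Complex.I_im, Complex.div_im, Complex.add_im, Complex.mul_im,
    Complex.re_ofNat, Complex.im_ofNat, Complex.normSq_ofNat, Complex.sub_im]
  ring

lemma lap_eq {χ : Cm R → ℝ} (hχ : ContDiff ℝ ∞ χ) (z : Cm R) :
    ∑ j, (cHess χ z j j).re = 1 / 4 * Lap χ z := by
  unfold Lap
  rw [Finset.mul_sum]
  exact Finset.sum_congr rfl fun j _ => cHess_diag hχ z j

lemma D2_trans (f : Cm R → ℝ) (a v z : Cm R) : D2 (fun x => f (x + a)) v z = D2 f v (z + a) := by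
  unfold D2
  have h1 : (fun x => fderiv ℝ (fun x => f (x + a)) x v) = fun x => fderiv ℝ f (x + a) v := by
    ext x
    rw [fderiv_comp_add_right]
  rw [h1, fderiv_comp_add_right (f := fun x => fderiv ℝ f x v)]

lemma Lap_trans (f : Cm R → ℝ) (a z : Cm R) : Lap (fun x => f (x + a)) z = Lap f (z + a) := by
  unfold Lap
  simp only [D2_trans]

lemma log_comp {x : ℝ} (hx : 0 ≤ x) :
    1 + Real.log (2 * (1 + x)) ≤ 2 * (1 + Real.log (2 + x)) := by
  have h1 : Real.log (2 * (1 + x)) = Real.log 2 + Real.log (1 + x) :=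
    Real.log_mul (by norm_num) (by linarith)
  have h2 : Real.log 2 ≤ 1 := by
    have := Real.log_le_sub_one_of_pos (by norm_num : (0 : ℝ) < 2)
    linarith
  have h3 : Real.log (1 + x) ≤ Real.log (2 + x) := Real.log_le_log (by linarith) (by linarith)
  have h4 : 0 ≤ Real.log (2 + x) := Real.log_nonneg (by linarith)
  rw [h1]
  linarith

/-- **Module E8.** -/
theorem e8_core (R m : ℕ) (hR : 1 ≤ R) (F : Cm R → Cm m) (hF : ∀ z, AnalyticAt ℂ F z)
    (hne : ∃ z, F z ≠ 0) (α c C r₀ : ℝ) (z₀ : Cm R) (u H : ℕ → Cm R → ℝ) (hα : 0 < α) (hc : 0 < c)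
    (hr₀ : 0 < r₀) (hu : ∀ N, Continuous (u N)) (hH : ∀ N, Continuous (H N))
    (hH0 : ∀ N z, 0 ≤ H N z)
    (hw : ∀ N (χ : Cm R → ℝ), ContDiff ℝ ∞ χ → HasCompactSupport χ →
      ∫ z, χ z * H N z = ∫ z, (∑ j, (cHess χ z j j).re) * u N z)
    (hup : ∀ N z, u N z ≤ C * (1 + Real.log (2 * (1 + nsq (F z)))))
    (hlo : ∀ N, ∫ z in Metric.ball z₀ r₀, max (-u N z) 0 ≤ C)
    (hL : ∀ᵐ z : Cm R, ∀ᶠ N in atTop, c * nsq (F z) ^ α ≤ H N z) : False := by
  -- a good centre
  obtain ⟨z₁, hz₁, hFz₁⟩ : ∃ z₁ ∈ ball z₀ r₀, F z₁ ≠ 0 := by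
    by_contra hcon
    push Not at hcon
    obtain ⟨z, hz⟩ := hne
    apply hz
    have h1 : AnalyticOnNhd ℂ F univ := fun z _ => hF z
    have h2 : AnalyticOnNhd ℂ (fun _ : Cm R => (0 : Cm m)) univ := fun z _ => analyticAt_const
    have h3 : F =ᶠ[𝓝 z₀] fun _ => (0 : Cm m) := by
      filter_upwards [ball_mem_nhds z₀ hr₀] with z hz using hcon z hz
    exact congrFun (h1.eq_of_eventuallyEq h2 h3) z
  obtain ⟨ρ, hρ, hρs⟩ : ∃ ρ > 0, closedBall z₁ ρ ⊆ ball z₀ r₀ :=
    nhds_basis_closedBall.mem_iff.1 (isOpen_ball.mem_nhds hz₁)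
  have hFd : Differentiable ℂ F := fun z => (hF z).differentiableAt
  set F' : Cm R → Cm m := fun z => F (z + z₁) with hF'
  set u' : ℕ → Cm R → ℝ := fun N z => u N (z + z₁) with hu'
  set H' : ℕ → Cm R → ℝ := fun N z => 4 * H N (z + z₁) with hH'
  have hct : Continuous fun z : Cm R => z + z₁ := by fun_prop
  refine ko_end (R := R) (F := F') hR ?_ ?_ (α := α) (c := c) (C := 2 * |C|) (ρ := ρ) hα hc hρ
    (V := u') (H := H') ?_ ?_ ?_ ?_ ?_ ?_ ?_
  · intro z
    exact (hFd _).comp z (differentiableAt_id.add_const z₁)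
  · rw [hF']
    simpa using hFz₁
  · intro N
    exact ((hu N).comp hct).locallyIntegrable
  · intro N
    exact (continuous_const.mul ((hH N).comp hct)).locallyIntegrable
  · intro N z
    exact mul_nonneg (by norm_num) (hH0 N _)
  · intro N s hs
    have hs0 : 0 < s := hρ.trans_le hs
    set χ : Cm R → ℝ := fun z => tf s (z + -z₁) with hχ
    have hχc : ContDiff ℝ ∞ χ := (contDiff_tf s).comp (contDiff_id.add contDiff_const)
    have hχs : HasCompactSupport χ := by
      refine HasCompactSupport.intro (isCompact_closedBall z₁ s) fun z hz => ?_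
      rw [mem_closedBall, dist_eq_norm, not_le] at hz
      show pk 4 (nsq (z + -z₁) / s ^ 2) = 0
      refine pk_out hs0 ?_
      rw [← sub_eq_add_neg]
      exact hz.le
    have h1 := hw N χ hχc hχs
    have h2 : ∀ z, (∑ j, (cHess χ z j j).re) * u N z = 1 / 4 * (Lap (tf s) (z + -z₁) * u N z) := by
      intro z
      rw [lap_eq hχc, hχ, Lap_trans]
      ring
    simp only [h2] at h1
    rw [integral_const_mul] at h1
    have h3 : ∫ z, tf s z * H' N z = 4 * ∫ z, χ z * H N z := by
      rw [← integral_add_right_eq_self (fun z => χ z * H N z) z₁, ← integral_const_mul]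
      refine integral_congr_ae (Eventually.of_forall fun z => ?_)
      simp only [hχ, hH', add_neg_cancel_right]
      ring
    have h4 : ∫ z, u' N z * Lap (tf s) z = ∫ z, Lap (tf s) (z + -z₁) * u N z := by
      rw [← integral_add_right_eq_self (fun z => Lap (tf s) (z + -z₁) * u N z) z₁]
      refine integral_congr_ae (Eventually.of_forall fun z => ?_)
      simp only [hu', add_neg_cancel_right]
      ring
    rw [h3, h1, h4]
    ring
  · intro N z
    have h1 := hup N (z + z₁)
    have h2 := log_comp (nsq_nonneg (F' z))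
    have h3 : 0 ≤ 1 + Real.log (2 * (1 + nsq (F' z))) := by
      have := Real.log_nonneg (by linarith [nsq_nonneg (F' z)] : (1 : ℝ) ≤ 2 * (1 + nsq (F' z)))
      linarith
    calc u' N z ≤ C * (1 + Real.log (2 * (1 + nsq (F' z)))) := h1
      _ ≤ |C| * (1 + Real.log (2 * (1 + nsq (F' z)))) :=
        mul_le_mul_of_nonneg_right (le_abs_self C) h3
      _ ≤ |C| * (2 * (1 + Real.log (2 + nsq (F' z)))) :=
        mul_le_mul_of_nonneg_left h2 (abs_nonneg C)
      _ = _ := by ring
  · intro N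
    have h0 : ∫ z, u' N z * pk 3 (nsq z / ρ ^ 2) = ∫ z, u N z * pk 3 (nsq (z + -z₁) / ρ ^ 2) := by
      rw [← integral_add_right_eq_self (fun z => u N z * pk 3 (nsq (z + -z₁) / ρ ^ 2)) z₁]
      refine integral_congr_ae (Eventually.of_forall fun z => ?_)
      simp only [hu', add_neg_cancel_right]
    rw [h0]
    have hwc : Continuous fun z : Cm R => pk 3 (nsq (z + -z₁) / ρ ^ 2) :=
      (cont_pk 3 ρ).comp (by fun_prop : Continuous fun z : Cm R => z + -z₁)
    have hwout : ∀ z, z ∉ closedBall z₁ ρ → pk 3 (nsq (z + -z₁) / ρ ^ 2) = 0 := by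
      intro z hz
      rw [mem_closedBall, dist_eq_norm, not_le] at hz
      refine pk_out hρ ?_
      rw [← sub_eq_add_neg]
      exact hz.le
    have hws : HasCompactSupport fun z : Cm R => pk 3 (nsq (z + -z₁) / ρ ^ 2) :=
      HasCompactSupport.intro (isCompact_closedBall z₁ ρ) hwout
    have hi1 : Integrable fun z => u N z * pk 3 (nsq (z + -z₁) / ρ ^ 2) :=
      ((hu N).mul hwc).integrable_of_hasCompactSupport hws.mul_left
    have hmc : Continuous fun z => max (-u N z) 0 := (hu N).neg.max continuous_const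
    have hi2 : Integrable ((ball z₀ r₀).indicator fun z => max (-u N z) 0) := by
      rw [integrable_indicator_iff measurableSet_ball]
      exact (hmc.continuousOn.integrableOn_compact (isCompact_closedBall z₀ r₀)).mono_set
        ball_subset_closedBall
    have hpt : ∀ z, -((ball z₀ r₀).indicator (fun z => max (-u N z) 0) z) ≤
        u N z * pk 3 (nsq (z + -z₁) / ρ ^ 2) := by
      intro z
      by_cases hz : z ∈ closedBall z₁ ρ
      · rw [indicator_of_mem (hρs hz)]
        have h1 := pk3_nonneg (nsq (z + -z₁) / ρ ^ 2)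
        have h2 : pk 3 (nsq (z + -z₁) / ρ ^ 2) ≤ 1 := pk3_le
        have h3 : -u N z ≤ max (-u N z) 0 := le_max_left _ _
        have h4 : 0 ≤ max (-u N z) 0 := le_max_right _ _
        nlinarith
      · rw [hwout z hz, mul_zero]
        by_cases hz' : z ∈ ball z₀ r₀
        · rw [indicator_of_mem hz']
          have h4 : 0 ≤ max (-u N z) 0 := le_max_right _ _
          linarith
        · rw [indicator_of_notMem hz', neg_zero]
    have h1 := integral_mono hi2.neg hi1 hpt
    have h2 : ∫ z, (-((ball z₀ r₀).indicator fun z => max (-u N z) 0)) z =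
        -∫ z in ball z₀ r₀, max (-u N z) 0 := by
      rw [← integral_indicator measurableSet_ball, ← integral_neg]
      rfl
    rw [h2] at h1
    have h3 := hlo N
    have h4 := le_abs_self C
    have h5 := abs_nonneg C
    linarith
  · have h1 : ∀ᵐ z : Cm R, ∀ᶠ N in atTop, c * nsq (F (z + z₁)) ^ α ≤ H N (z + z₁) :=
      (measurePreserving_add_right volume z₁).quasiMeasurePreserving.ae hL
    filter_upwards [h1] with z hz
    filter_upwards [hz] with N hN
    have h2 := hH0 N (z + z₁)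
    show c * nsq (F (z + z₁)) ^ α ≤ 4 * H N (z + z₁)
    linarith

end Vale.Agent.P284.H551.E
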